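import Vale.Agent.P207Z.Sm.Sk
import Vale.Agent.P207Z.Geo.Pur.Nil

/-!
# P207, the smooth case: calculus and algebra for the frame at one point
-/

open Set Filter Topology Metric
open scoped ContDiff

noncomputable section

namespace Vale.Agent.P207Z.SC.Car0x

section Cal

variable {W V : Type} [NormedAddCommGroup W] [NormedSpace ℝ W] [NormedAddCommGroup V]
  [NormedSpace ℝ V] {g : W × W → V} {U : Set (W × W)} {z : W × W}

theorem dAt (hU : IsOpen U) (hg : ContDiffOn ℝ ∞ g U) (hz : z ∈ U) : DifferentiableAt ℝ g z :=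
  (hg.contDiffAt (hU.mem_nhds hz)).differentiableAt (by simp)

theorem has1 (hg : DifferentiableAt ℝ g z) :
    HasFDerivAt (fun a => g (a, z.2)) (fderiv ℝ g z ∘L ContinuousLinearMap.inl ℝ W W) z.1 :=
  HasFDerivAt.comp (g := g) z.1 hg.hasFDerivAt (hasFDerivAt_prodMk_left z.1 z.2)

theorem has2 (hg : DifferentiableAt ℝ g z) :
    HasFDerivAt (fun b => g (z.1, b)) (fderiv ℝ g z ∘L ContinuousLinearMap.inr ℝ W W) z.2 :=
  HasFDerivAt.comp (g := g) z.2 hg.hasFDerivAt (hasFDerivAt_prodMk_right z.1 z.2)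

theorem sm1 (hU : IsOpen U) (hg : ContDiffOn ℝ ∞ g U) :
    ContDiffOn ℝ ∞ (fun z : W × W => fderiv ℝ (fun a => g (a, z.2)) z.1) U :=
  ((hg.fderiv_of_isOpen hU (by simp)).clm_comp contDiffOn_const).congr fun _ hz =>
    (has1 (dAt hU hg hz)).fderiv

theorem sm2 (hU : IsOpen U) (hg : ContDiffOn ℝ ∞ g U) :
    ContDiffOn ℝ ∞ (fun z : W × W => fderiv ℝ (fun b => g (z.1, b)) z.2) U :=
  ((hg.fderiv_of_isOpen hU (by simp)).clm_comp contDiffOn_const).congr fun _ hz =>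
    (has2 (dAt hU hg hz)).fderiv

theorem split (hg : DifferentiableAt ℝ g z) (v w : W) : fderiv ℝ g z (v, w) =
    fderiv ℝ (fun a => g (a, z.2)) z.1 v + fderiv ℝ (fun b => g (z.1, b)) z.2 w := by
  rw [(has1 hg).fderiv, (has2 hg).fderiv]
  simp only [ContinuousLinearMap.comp_apply, ContinuousLinearMap.inl_apply,
    ContinuousLinearMap.inr_apply, ← map_add, Prod.mk_add_mk, add_zero, zero_add]

theorem has_app {T : W → W →L[ℝ] V} {c : W → W} {u : W} (hT : DifferentiableAt ℝ T u)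
    (hc : DifferentiableAt ℝ c u) (h0 : c u = 0) :
    HasFDerivAt (fun a => T a (c a)) (T u ∘L fderiv ℝ c u) u := by
  have h := hT.hasFDerivAt.clm_apply hc.hasFDerivAt
  rwa [h0, map_zero, add_zero] at h

theorem fderiv_br {O : Set W} (hO : IsOpen O) {u : W} (hu : u ∈ O) {c c' k : W → W}
    (hc : ContDiffOn ℝ ∞ c O) (hc' : ContDiffOn ℝ ∞ c' O) (h0 : c u = 0) (h0' : c' u = 0)
    (hk : ∀ a ∈ O, k a = VectorField.lieBracket ℝ c c' a) :
    fderiv ℝ k u = fderiv ℝ c' u ∘L fderiv ℝ c u - fderiv ℝ c u ∘L fderiv ℝ c' u := by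
  have h1 : ∀ {c : W → W}, ContDiffOn ℝ ∞ c O →
      DifferentiableAt ℝ c u ∧ DifferentiableAt ℝ (fderiv ℝ c) u := fun hc =>
    ⟨(hc.contDiffAt (hO.mem_nhds hu)).differentiableAt (by simp),
      ((hc.fderiv_of_isOpen (m := ∞) hO (by simp)).contDiffAt (hO.mem_nhds hu)).differentiableAt
        (by simp)⟩
  refine (((has_app (h1 hc').2 (h1 hc).1 h0).sub
    (has_app (h1 hc).2 (h1 hc').1 h0')).congr_of_eventuallyEq ?_).fderiv
  filter_upwards [hO.mem_nhds hu] with a ha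
  exact hk a ha

end Cal

section Lin

variable {E : Type} [NormedAddCommGroup E] [NormedSpace ℝ E] [FiniteDimensional ℝ E]

theorem surj {M : E →L[ℝ] E →L[ℝ] ℝ} (h : Function.Injective M) : Function.Surjective M := by
  refine (LinearMap.injective_iff_surjective_of_finrank_eq_finrank
    (f := (M : E →ₗ[ℝ] E →L[ℝ] ℝ)) ?_).1 h
  rw [← (LinearMap.toContinuousLinearMap (𝕜 := ℝ) (E := E) (F' := ℝ)).finrank_eq]
  exact (Subspace.dual_finrank_eq).symm

theorem nd_right {M : E →L[ℝ] E →L[ℝ] ℝ} (h : Function.Injective M) {v : E}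
    (hv : ∀ w, M w v = 0) : v = 0 := by
  refine (Module.forall_dual_apply_eq_zero_iff ℝ v).1 fun l => ?_
  obtain ⟨w, hw⟩ := surj h (LinearMap.toContinuousLinearMap l)
  have h1 := hv w
  rw [hw] at h1
  exact h1

/-- A skew operator which is an eigenvector of an inner derivation is zero. -/
theorem skew_zero {q : E → E → ℝ} (hq : ∀ v, v ≠ 0 → 0 < q v v) (h0 : ∀ v, q 0 v = 0)
    {N P : E →L[ℝ] E} (hs : ∀ v w, q (N v) w + q v (N w) = 0) {r : ℝ} (hr : r ≠ 0)
    (h : r • N = N ∘L P - P ∘L N) : N = 0 := by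
  have h1 : r • (N : Module.End ℝ E) = (N : Module.End ℝ E) * P - (P : Module.End ℝ E) * N :=
    congrArg ContinuousLinearMap.toLinearMap h
  obtain ⟨n, hn⟩ : IsNilpotent (N : Module.End ℝ E) := Geo.Purx.nil_of_tr fun k => by
    refine mul_left_cancel₀ hr ?_
    rw [← smul_eq_mul, ← map_smul, ← smul_mul_assoc, h1, sub_mul, map_sub, mul_assoc,
      LinearMap.trace_mul_comm, mul_assoc, mul_assoc, ← pow_succ, ← pow_succ', sub_self, mul_zero]
  have h2 : ∀ k : ℕ, (N : Module.End ℝ E) ^ (k + 1) = 0 → (N : Module.End ℝ E) = 0 := fun k => by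
    induction k with
    | zero => rw [zero_add, pow_one]; exact id
    | succ k ih =>
      refine fun h2 => ih (LinearMap.ext fun v => ?_)
      by_contra h3
      have h4 := hq _ h3
      have h5 := hs (((N : Module.End ℝ E) ^ (k + 1)) v) (((N : Module.End ℝ E) ^ k) v)
      have h6 : ∀ j : ℕ, N (((N : Module.End ℝ E) ^ j) v) = ((N : Module.End ℝ E) ^ (j + 1)) v :=
        fun j => by rw [pow_succ']; rfl
      rw [h6, h6, h2, LinearMap.zero_apply, h0, zero_add] at h5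
      exact h4.ne' h5
  exact ContinuousLinearMap.coe_injective (h2 n (by rw [pow_succ, hn, zero_mul]))

end Lin

section Kil

variable {G : Type} [NormedAddCommGroup G] [NormedSpace ℝ G] (A : LA G)

theorem exists_kil : ∃ k : G →ₗ[ℝ] G →ₗ[ℝ] ℝ, ∀ a b, k a b = A.kil a b :=
  ⟨LinearMap.mk₂ ℝ A.kil
    (fun a b c => by simp [LA.kil, ContinuousLinearMap.add_comp])
    (fun t a b => by simp [LA.kil, ContinuousLinearMap.smul_comp])
    (fun a b c => by simp [LA.kil, ContinuousLinearMap.comp_add])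
    (fun t a b => by simp [LA.kil]), fun _ _ => rfl⟩

theorem kil_symm (a b : G) : A.kil a b = A.kil b a :=
  LinearMap.trace_mul_comm ℝ (A.br a : G →ₗ[ℝ] G) (A.br b)

theorem kil_inv (a b c : G) : A.kil (A.br a b) c + A.kil b (A.br a c) = 0 := by
  have h1 : ∀ a b, (A.br (A.br a b) : Module.End ℝ G) =
      (A.br a : Module.End ℝ G) * A.br b - (A.br b : Module.End ℝ G) * A.br a := fun a b =>
    LinearMap.ext fun c => eq_sub_of_add_eq (A.jac a b c).symm
  change LinearMap.trace ℝ G ((A.br (A.br a b) : Module.End ℝ G) * A.br c) +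
    LinearMap.trace ℝ G ((A.br b : Module.End ℝ G) * A.br (A.br a c)) = 0
  rw [h1, h1, sub_mul, mul_sub, map_sub, map_sub, mul_assoc, mul_assoc,
    LinearMap.trace_mul_comm ℝ (A.br a : Module.End ℝ G), mul_assoc]
  ring

theorem kil_eig {H a b : G} {r s : ℝ} (ha : A.br H a = r • a) (hb : A.br H b = s • b)
    (h : r + s ≠ 0) : A.kil a b = 0 := by
  obtain ⟨k, hk⟩ := exists_kil A
  have h1 := kil_inv A H a b
  rw [ha, hb, ← hk, ← hk, map_smul, map_smul, LinearMap.smul_apply, hk, smul_eq_mul, smul_eq_mul,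
    ← add_mul] at h1
  exact (mul_eq_zero.1 h1).resolve_left h

theorem br_self (a : G) : A.br a a = 0 := by
  have h := A.anti a a
  rwa [eq_neg_iff_add_eq_zero, ← two_smul ℝ, smul_eq_zero_iff_right two_ne_zero] at h

variable {A} {n : ℕ} {lam : Fin n → ℝ} {θ : G ≃L[ℝ] G} {H : G} {Y : Fin n → G}

theorem exists_ip (A : LA G) (lam : Fin n → ℝ) (θ : G ≃L[ℝ] G) :
    ∃ k : G →ₗ[ℝ] G →ₗ[ℝ] ℝ, ∀ a b, k a b = A.ip lam θ a b := by
  obtain ⟨k, hk⟩ := exists_kil A
  refine ⟨(-(2 * ∑ i, lam i ^ 2)⁻¹) • k.compl₂ (θ : G →ₗ[ℝ] G), fun a b => ?_⟩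
  rw [LA.ip, ← hk]
  simp [div_eq_inv_mul]

theorem eig_neg (h : A.Frame lam θ H Y) (i : Fin n) : A.br H (θ (Y i)) = -lam i • θ (Y i) := by
  have h1 := h.aut H (Y i)
  rw [h.eig, h.neg, map_neg, map_smul, neg_apply] at h1
  rw [neg_smul, h1, neg_neg]

theorem ip_Y (h : A.Frame lam θ H Y) (s : Fin n → ℝ) (j : Fin n) :
    A.ip lam θ (∑ i, s i • Y i) (Y j) = s j := by
  obtain ⟨k, hk⟩ := exists_ip A lam θ
  rw [← hk]
  simp [hk, h.on]

theorem ip_thY (h : A.Frame lam θ H Y) {Z₀ : G} (h0 : A.br H Z₀ = 0) (s t : Fin n → ℝ)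
    (j : Fin n) : A.ip lam θ (Z₀ + ∑ i, s i • Y i + ∑ i, t i • θ (Y i)) (θ (Y j)) = t j := by
  obtain ⟨k, hk⟩ := exists_ip A lam θ
  have h1 : A.ip lam θ Z₀ (θ (Y j)) = 0 := by
    rw [LA.ip, h.inv, kil_eig A (r := 0) (by rw [h0, zero_smul]) (h.eig j)
      (by rw [zero_add]; exact (h.lam_pos j).ne'), neg_zero, zero_div]
  have h2 : ∀ i, A.ip lam θ (Y i) (θ (Y j)) = 0 := fun i => by
    rw [LA.ip, h.inv, kil_eig A (h.eig i) (h.eig j) (add_pos (h.lam_pos i) (h.lam_pos j)).ne',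
      neg_zero, zero_div]
  have h3 : ∀ i, A.ip lam θ (θ (Y i)) (θ (Y j)) = if j = i then 1 else 0 := fun i => by
    rw [← h.on, LA.ip, LA.ip, h.inv, kil_symm]
  rw [← hk]
  simp [hk, h1, h2, h3]

theorem ip_H (h : A.Frame lam θ H Y) (Z₀ : G) (s t : Fin n → ℝ) :
    A.ip lam θ H (Z₀ + ∑ i, s i • Y i + ∑ i, t i • θ (Y i)) = A.ip lam θ H Z₀ := by
  obtain ⟨k, hk⟩ := exists_ip A lam θ
  have h0 : A.br H H = (0 : ℝ) • H := by rw [br_self, zero_smul]
  have h1 : ∀ i, A.ip lam θ H (Y i) = 0 := fun i => by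
    rw [LA.ip, kil_eig A h0 (eig_neg h i)
      (by rw [zero_add]; exact neg_ne_zero.2 (h.lam_pos i).ne'), neg_zero, zero_div]
  have h2 : ∀ i, A.ip lam θ H (θ (Y i)) = 0 := fun i => by
    rw [LA.ip, h.inv, kil_eig A h0 (h.eig i) (by rw [zero_add]; exact (h.lam_pos i).ne'),
      neg_zero, zero_div]
  rw [← hk, map_add, map_add, map_sum, map_sum]
  simp only [map_smul]
  simp [hk, h1, h2]

end Kil

end Vale.Agent.P207Z.SC.Car0x

end
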