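import Vale.Agent.P207Z.Sm.Car0.Cal

/-!
# P207, the smooth case: Killing fields at a pair of points
-/

set_option linter.unusedSectionVars false

open Set Filter Topology Metric MeasureTheory
open scoped ContDiff

noncomputable section

namespace Vale.Agent.P207Z.SC.Car0x

open Vale.Agent.P207.N4 Vale.Agent.P207.N3

variable [Dim]

variable {Γ X B : Type} [Group Γ] [MetricSpace X] [ProperSpace X] [MulAction Γ X]
  [IsIsometricSMul Γ X] [TopologicalSpace B] [CompactSpace B] [T2Space B] [MulAction Γ B]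
  [ContinuousConstSMul Γ B] [MeasurableSpace B] [BorelSpace B] {L : Leaf Γ X B}

variable {S : Sm L} {G : Type} [NormedAddCommGroup G] [NormedSpace ℝ G] {A : Alg S G}
  {p q y : X} {Z W : G} {u b : E2}

theorem z3 : (0 : E2) ∈ ball (0 : E2) 3 := mem_ball_self (by norm_num)

theorem od_open (S : Sm L) (p q : X) : IsOpen (Od L p q) := isOpen_slice S.f_jc.isOpen (p, q)

theorem ff_sm (S : Sm L) (p q : X) : ContDiffOn ℝ ∞ (FF L S.A.D p q) (Od L p q) :=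
  S.f_jc.smooth (p, q)

theorem ch_e (L : Leaf Γ X B) (x : X) (hu : u ∈ ball (0 : E2) 3) : ch L x (L.e x u) = u :=
  (L.e_inj x).leftInvOn_invFunOn (ball_subset_closedBall hu)

theorem c_sm (A : Alg S G) (Z : G) (x : X) : ContDiffOn ℝ ∞ (A.c Z x) (ball 0 3) :=
  (A.kill Z).1.1 x

theorem c_diff (A : Alg S G) (Z : G) (x : X) (hu : u ∈ ball (0 : E2) 3) :
    DifferentiableAt ℝ (A.c Z x) u :=
  ((c_sm A Z x).contDiffAt (isOpen_ball.mem_nhds hu)).differentiableAt (by simp)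

theorem van_of (hu : u ∈ ball (0 : E2) 3) (h : A.c Z p u = 0) : A.Van (L.e p u) Z := by
  intro y w hw h1
  have h2 := (A.kill Z).1.2 p y u ⟨hu, w, hw, h1⟩
  have h3 : L.τ p y u = w := by
    rw [← ch_e L y hw, h1]
    rfl
  rwa [h3, h, map_zero] at h2

theorem c_br0 (h : A.c Z p 0 = 0) : A.c (A.br Z W) p 0 = -fderiv ℝ (A.c Z p) 0 (A.c W p 0) := by
  rw [A.c_br Z W p 0 z3, VectorField.lieBracket, h, map_zero, zero_sub]

theorem d_br (h : A.c Z p 0 = 0) (h' : A.c W p 0 = 0) : fderiv ℝ (A.c (A.br Z W) p) 0 =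
    fderiv ℝ (A.c W p) 0 ∘L fderiv ℝ (A.c Z p) 0 - fderiv ℝ (A.c Z p) 0 ∘L fderiv ℝ (A.c W p) 0 :=
  fderiv_br isOpen_ball z3 (c_sm A Z p) (c_sm A W p) h h' (A.c_br Z W p)

theorem d_smul (r : ℝ) : fderiv ℝ (A.c (r • Z) p) 0 = r • fderiv ℝ (A.c Z p) 0 := by
  rw [map_smul]
  exact fderiv_const_smul (c_diff A Z p z3) r

/-- the derivative of `D` in the first slot at the centre of the chart -/
def psi (S : Sm L) (p : X) (ζ : B) : E2 →L[ℝ] ℝ := fderiv ℝ (fun a => S.A.D (L.e p a) ζ) 0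

theorem has_psi (h : ((0 : E2), b) ∈ Od L p q) :
    HasFDerivAt (fun b => psi S p (L.e q b)) (mix (FF L S.A.D p q) (0, b)) b :=
  (has2 (dAt (od_open S p q) (sm1 (od_open S p q) (ff_sm S p q)) h)).differentiableAt.hasFDerivAt

theorem mix_diff (h : ((0 : E2), b) ∈ Od L p q) :
    DifferentiableAt ℝ (fun b => mix (FF L S.A.D p q) (0, b)) b :=
  (has2 (dAt (od_open S p q)
    (sm2 (od_open S p q) (sm1 (od_open S p q) (ff_sm S p q))) h)).differentiableAt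

theorem k1 (hm : A.MomEq) (h : ((0 : E2), b) ∈ Od L p q) (h0 : A.c Z p 0 = 0) :
    mix (FF L S.A.D p q) (0, b) (A.c Z q b) = fderiv ℝ (fun a => A.f Z (L.e p a)) 0 -
      psi S p (L.e q b) ∘L fderiv ℝ (A.c Z p) 0 := by
  have h1 : DifferentiableAt ℝ (fun a => d1 (FF L S.A.D p q) (a, b)) 0 :=
    (has1 (dAt (od_open S p q) (sm1 (od_open S p q) (ff_sm S p q)) h)).differentiableAt
  have h2 : DifferentiableAt ℝ (fun a => A.f Z (L.e p a)) 0 :=
    (((A.kill Z).2.1 p).contDiffAt (isOpen_ball.mem_nhds z3)).differentiableAt (by simp)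
  have h3 : HasFDerivAt (fun a => A.mm p q Z (a, b)) _ 0 :=
    (h2.hasFDerivAt.sub (has_app h1 (c_diff A Z p z3) h0)).congr_of_eventuallyEq (by
      have h3 : ∀ᶠ a in 𝓝 (0 : E2), (a, b) ∈ Od L p q :=
        (Continuous.prodMk_left b).continuousAt.eventually_mem ((od_open S p q).mem_nhds h)
      filter_upwards [h3] with a ha
      exact hm.eq p q (a, b) ha Z)
  ext v
  rw [← hm.fst p q (0, b) h Z v]
  exact DFunLike.congr_fun h3.fderiv v

theorem k2 (hm : A.MomEq) (hq : ((0 : E2), (0 : E2)) ∈ Od L p q) (h0 : A.c Z p 0 = 0)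
    (h0' : A.c Z q 0 = 0) (h : ((0 : E2), b) ∈ Od L p y) :
    mix (FF L S.A.D p y) (0, b) (A.c Z y b) =
      -((psi S p (L.e y b) - psi S p (L.e q 0)) ∘L fderiv ℝ (A.c Z p) 0) := by
  have h1 := k1 hm hq h0
  rw [h0', map_zero, eq_comm, sub_eq_zero] at h1
  rw [k1 hm h h0, h1, ContinuousLinearMap.sub_comp, neg_sub]

theorem dual (hm : A.MomEq) (hq : ((0 : E2), (0 : E2)) ∈ Od L p q) (h0 : A.c Z p 0 = 0)
    (h0' : A.c Z q 0 = 0) (w : E2) :
    mix (FF L S.A.D p q) (0, 0) (fderiv ℝ (A.c Z q) 0 w) =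
      -(mix (FF L S.A.D p q) (0, 0) w ∘L fderiv ℝ (A.c Z p) 0) := by
  have h1 := has_app (mix_diff (S := S) hq) (c_diff A Z q z3) h0'
  have h2 := (((ContinuousLinearMap.precomp ℝ (fderiv ℝ (A.c Z p) 0)).hasFDerivAt.comp 0
    ((has_psi (S := S) hq).sub_const (psi S p (L.e q 0)))).neg).congr_of_eventuallyEq
    (f₁ := fun b => mix (FF L S.A.D p q) (0, b) (A.c Z q b)) (by
      have h3 : ∀ᶠ b in 𝓝 (0 : E2), ((0 : E2), b) ∈ Od L p q :=
        (Continuous.prodMk_right 0).continuousAt.eventually_mem ((od_open S p q).mem_nhds hq)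
      filter_upwards [h3] with b hb
      exact k2 hm hq h0 h0' hb)
  exact DFunLike.congr_fun (h1.unique h2) w

theorem mu_br (hm : A.MomEq) (hq : ((0 : E2), (0 : E2)) ∈ Od L p q) (W Z : G) :
    A.mm p q (A.br W Z) (0, 0) = mix (FF L S.A.D p q) (0, 0) (A.c Z q 0) (A.c W p 0) -
      mix (FF L S.A.D p q) (0, 0) (A.c W q 0) (A.c Z p 0) := by
  rw [hm.br p q _ hq, split (dAt (od_open S p q) (hm.smooth p q Z) hq), sub_eq_add_neg,
    ← hm.fst p q _ hq, ← hm.snd p q _ hq]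
  rfl

theorem key1 (hm : A.MomEq) (hq : ((0 : E2), (0 : E2)) ∈ Od L p q) (h0 : A.c Z p 0 = 0)
    (h0' : A.c Z q 0 = 0) (h : fderiv ℝ (A.c Z p) 0 = 0) : Z = 0 := by
  refine A.faith Z fun y b hb => ?_
  by_cases h1 : L.e p 0 = L.e y b
  · exact van_of z3 h0 y b hb h1.symm
  · have h2 : ((0 : E2), b) ∈ Od L p y := ⟨z3, hb, h1⟩
    refine S.nd p y _ h2 ?_
    rw [k2 hm hq h0 h0' h2, h, ContinuousLinearMap.comp_zero, neg_zero, map_zero]

theorem key2 (hm : A.MomEq) (hq : ((0 : E2), (0 : E2)) ∈ Od L p q) (h0 : A.c Z p 0 = 0)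
    (h0' : A.c Z q 0 = 0) (h : fderiv ℝ (A.c Z q) 0 = 0) : Z = 0 := by
  refine key1 hm hq h0 h0' (ContinuousLinearMap.ext fun v => nd_right (S.nd p q _ hq) fun w => ?_)
  have h1 := DFunLike.congr_fun (dual hm hq h0 h0' w) v
  rw [h, zero_apply, map_zero] at h1
  exact neg_eq_zero.1 h1.symm

theorem exists_mu (hm : A.MomEq) (hq : ((0 : E2), (0 : E2)) ∈ Od L p q) :
    ∃ μ : G →ₗ[ℝ] ℝ, ∀ Z, μ Z = A.mm p q Z (0, 0) :=
  ⟨{ toFun := fun Z => A.mm p q Z (0, 0)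
     map_add' := fun Z W => by
      simp only [hm.eq p q _ hq, map_add, Pi.add_apply]
      ring
     map_smul' := fun t Z => by
      simp only [hm.eq p q _ hq, map_smul, Pi.smul_apply, smul_eq_mul, RingHom.id_apply]
      ring }, fun _ => rfl⟩

theorem mm_f (hm : A.MomEq) (hq : ((0 : E2), (0 : E2)) ∈ Od L p q) (h0 : A.c Z p 0 = 0) :
    A.mm p q Z (0, 0) = A.f Z (L.e p 0) := by
  rw [hm.eq p q _ hq, h0, map_zero, sub_zero]

/-! ### The invariant scalar product -/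

theorem near (h : Basic0 S) {ξ η : B} (hne : ξ ≠ η) :
    ∀ᶠ ζ in 𝓝 η, ζ ≠ ξ ∧ (ζ = η ∨ S.A.D ζ η < S.A.D ζ ξ) := by
  have h1 : ContinuousAt (fun ζ => S.A.D ζ ξ) η :=
    ContinuousAt.comp (f := fun ζ => (ζ, ξ)) (h.cont.continuousAt
      ((isOpen_ne_fun continuous_fst continuous_snd).mem_nhds hne.symm))
      (Continuous.prodMk_left ξ).continuousAt
  have h2 : IsClosed {ζ | ζ ≠ η ∧ S.A.D η ξ - 1 ≤ S.A.D ζ η} :=
    (h.proper (S.A.D η ξ - 1)).isClosed.preimage (Continuous.prodMk_left η)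
  filter_upwards [isOpen_ne.mem_nhds hne.symm, h1.eventually (lt_mem_nhds (sub_one_lt _)),
    h2.isOpen_compl.mem_nhds fun h3 => h3.1 rfl] with ζ h3 h4 h5
  refine ⟨h3, ?_⟩
  by_contra h6
  push Not at h6
  exact h5 ⟨h6.1, h4.le.trans h6.2⟩

theorem closed (h : Basic0 S) {ξ η : B} (hne : ξ ≠ η) :
    IsClosed {ζ | ζ ≠ ξ ∧ (ζ = η ∨ S.A.D ζ η ≤ S.A.D ζ ξ)} := by
  have h1 : ∀ ζ ξ, ζ ≠ ξ → ContinuousAt (fun ζ => S.A.D ζ ξ) ζ := fun ζ ξ h1 =>
    ContinuousAt.comp (f := fun ζ => (ζ, ξ)) (h.cont.continuousAt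
      ((isOpen_ne_fun continuous_fst continuous_snd).mem_nhds h1))
      (Continuous.prodMk_left ξ).continuousAt
  rw [← isOpen_compl_iff, isOpen_iff_mem_nhds]
  intro ζ hζ
  by_cases h2 : ζ = ξ
  · subst h2
    filter_upwards [near h hne.symm] with ζ' h3 h4
    exact not_le.2 (h3.2.resolve_left h4.1) (h4.2.resolve_left h3.1)
  · have h3 : ζ ≠ η := fun h3 => hζ ⟨h2, Or.inl h3⟩
    have h4 : S.A.D ζ ξ < S.A.D ζ η := not_le.1 fun h4 => hζ ⟨h2, Or.inr h4⟩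
    filter_upwards [isOpen_ne.mem_nhds h3, (h1 ζ ξ h2).eventually_lt (h1 ζ η h3) h4] with ζ' h5 h6
      h7
    exact not_le.2 h6 (h7.2.resolve_left h5)

theorem od_fr (h : Basic0 S) {ζ : B} (hζ : ζ ≠ L.e p 0) :
    L.e (fr L ζ) 0 = ζ ∧ ((0 : E2), (0 : E2)) ∈ Od L p (fr L ζ) := by
  have h1 : L.e (fr L ζ) 0 = ζ := by rw [L.e_zero, h.ep_fr]
  exact ⟨h1, z3, z3, fun h2 => hζ (h1.symm.trans h2.symm)⟩

theorem psi_cont (h : Basic0 S) {ζ : B} (hζ : ζ ≠ L.e p 0) : ContinuousAt (psi S p) ζ := by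
  obtain ⟨h1, h2⟩ := od_fr h hζ
  have h3 := (has_psi (S := S) h2).continuousAt
  rw [ContinuousAt, h1] at h3
  rw [ContinuousAt]
  nth_rw 1 [← h1]
  rw [← h.nhds _ 0 z3, tendsto_map'_iff]
  exact h3

theorem drv_const {ξ : B} (h : A.Van ξ Z) : Drv L (fun _ => A.c Z) fun _ => ξ := by
  refine ⟨continuous_const, ?_⟩
  rintro t y ⟨w, hw, h1⟩
  have h2 : ch L y ξ = w := (congrArg (ch L y) h1).symm.trans (ch_e L y hw)
  simp only [h2, h y w hw h1]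
  exact hasDerivAt_const t w

theorem psi_der (h : Basic0 S) (hm : A.MomEq) (hq : ((0 : E2), (0 : E2)) ∈ Od L p q)
    (h0 : A.c Z p 0 = 0) (h0' : A.c Z q 0 = 0) {γ : ℝ → B} (hγ : Drv L (fun _ => A.c Z) γ) {t : ℝ}
    (ht : γ t ≠ L.e p 0) : HasDerivAt (fun s => psi S p (γ s) - psi S p (L.e q 0))
      (-((psi S p (γ t) - psi S p (L.e q 0)) ∘L fderiv ℝ (A.c Z p) 0)) t := by
  obtain ⟨h1, h2⟩ := od_fr h ht
  generalize fr L (γ t) = y at h1 h2
  have h3 : γ t ∈ L.e y '' ball 0 3 := ⟨0, z3, h1⟩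
  have h4 : ch L y (γ t) = 0 := by rw [← h1, ch_e L y z3]
  have h5 := hγ.2 t y h3
  have h6 := k2 hm hq h0 h0' h2
  rw [h4] at h5
  rw [h1] at h6
  rw [← h6]
  refine (((has_psi (S := S) h2).comp_hasDerivAt_of_eq t h5 h4.symm).congr_of_eventuallyEq
    ?_).sub_const _
  have h7 : ∀ᶠ s in 𝓝 t, γ s ∈ L.e y '' ball 0 3 :=
    hγ.1.continuousAt.eventually_mem
      ((L.e_open.preimage (Continuous.prodMk_right y)).mem_nhds h3)
  filter_upwards [h7] with s ⟨w, hw, h8⟩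
  rw [Function.comp_apply, ← h8, ch_e L y hw]

theorem exists_q (h : Basic0 S) (hm : A.MomEq) (hi : IC L) (ht : A.Transport) (hs : SkewStmt)
    (hq : ((0 : E2), (0 : E2)) ∈ Od L p q) : ∃ k : E2 →ₗ[ℝ] E2 →ₗ[ℝ] ℝ, (∀ v w, k v w = k w v) ∧
      (∀ v, v ≠ 0 → 0 < k v v) ∧ ∀ Z, A.c Z p 0 = 0 → A.c Z q 0 = 0 → A.mm p q Z (0, 0) = 0 →
        ∀ v w, k (fderiv ℝ (A.c Z q) 0 v) w + k v (fderiv ℝ (A.c Z q) 0 w) = 0 := by
  have hne : L.e p 0 ≠ L.e q 0 := hq.2.2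
  obtain ⟨k, k1, k2, k3⟩ := hs (E2 →L[ℝ] ℝ)
    ((fun ζ => psi S p ζ - psi S p (L.e q 0)) '' {ζ | ζ ≠ L.e p 0 ∧
      (ζ = L.e q 0 ∨ S.A.D ζ (L.e q 0) ≤ S.A.D ζ (L.e p 0))})
    {T | ∃ Z, A.c Z p 0 = 0 ∧ A.c Z q 0 = 0 ∧ A.mm p q Z (0, 0) = 0 ∧
      T = -ContinuousLinearMap.precomp ℝ (fderiv ℝ (A.c Z p) 0)}
    ((closed h hne).isCompact.image_of_continuousOn fun ζ hζ =>
      ((psi_cont h hζ.1).sub continuousAt_const).continuousWithinAt) (by
      by_contra h1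
      obtain ⟨l, h2, h3⟩ := Submodule.exists_le_ker_of_lt_top _ (lt_top_iff_ne_top.2 h1)
      have h4 := (LinearMap.toContinuousLinearMap l).hasFDerivAt.comp 0
        ((has_psi (S := S) hq).sub_const (psi S p (L.e q 0)))
      have h5 := near h hne
      rw [← h.nhds q 0 z3, eventually_map] at h5
      have h6 := h4.unique ((hasFDerivAt_const (0 : ℝ) (0 : E2)).congr_of_eventuallyEq (by
        filter_upwards [h5] with b hb
        exact h3 (Submodule.subset_span ⟨_, ⟨hb.1, hb.2.imp_right le_of_lt⟩, rfl⟩)))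
      refine h2 (LinearMap.ext fun v => ?_)
      obtain ⟨w, rfl⟩ := surj (S.nd p q _ hq) v
      exact DFunLike.congr_fun h6 w) (by
      rintro _ ⟨Z, h0, h0', h1, rfl⟩ _ ⟨ζ, hζ, rfl⟩
      have v1 := drv_const (van_of z3 h0)
      have v2 := drv_const (van_of z3 h0')
      by_cases h2 : ζ = L.e q 0
      · exact ⟨_, by rw [h2], fun t => ⟨⟨_, ⟨hne.symm, Or.inl rfl⟩, rfl⟩,
          psi_der h hm hq h0 h0' v2 hne.symm⟩⟩
      obtain ⟨γ, h3, hγ⟩ := hi _ (A.kill Z).1 ζ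
      have h4 := ht.two (fun _ => Z) γ _ continuous_const hγ v1 (h3 ▸ hζ.1)
      have h5 := ht.two (fun _ => Z) γ _ continuous_const hγ v2 (h3 ▸ h2)
      have h6 : A.f Z (L.e p 0) = 0 := (mm_f hm hq h0).symm.trans h1
      have h7 : A.f Z (L.e q 0) = 0 := by
        rw [← mm_f hm (p := q) (q := p) ⟨z3, z3, hne.symm⟩ h0']
        exact (hm.anti _ _ Z hne).trans (neg_eq_zero.2 h1)
      have h8 : ∀ t, HasDerivAt (fun s => S.A.D (γ s) (L.e q 0) - S.A.D (γ s) (L.e p 0)) 0 t :=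
        fun t => by
          have h8 := (h5 t).2.1.sub (h4 t).2.1
          rwa [h6, h7, sub_self] at h8
      refine ⟨fun s => psi S p (γ s) - psi S p (L.e q 0), by simp only [h3], fun t =>
        ⟨⟨γ t, ⟨(h4 t).1, Or.inr ?_⟩, rfl⟩, psi_der h hm hq h0 h0' hγ (h4 t).1⟩⟩
      have h9 := is_const_of_deriv_eq_zero (fun t => (h8 t).differentiableAt)
        (fun t => (h8 t).deriv) t 0
      have h10 := hζ.2.resolve_left h2
      simp only [h3] at h9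
      linarith)
  refine ⟨(k.toLinearMap₁₂).compl₁₂ (mix (FF L S.A.D p q) (0, 0) : E2 →ₗ[ℝ] E2 →L[ℝ] ℝ)
    (mix (FF L S.A.D p q) (0, 0) : E2 →ₗ[ℝ] E2 →L[ℝ] ℝ), fun v w => k1 _ _,
    fun v hv => k2 _ fun h1 => hv (S.nd p q _ hq (h1.trans (map_zero _).symm)),
    fun Z h0 h0' h1 v w => ?_⟩
  have h2 := k3 _ ⟨Z, h0, h0', h1, rfl⟩ (mix (FF L S.A.D p q) (0, 0) v)
    (mix (FF L S.A.D p q) (0, 0) w)
  change k (mix _ _ (fderiv ℝ (A.c Z q) 0 v)) (mix _ _ w) +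
    k (mix _ _ v) (mix _ _ (fderiv ℝ (A.c Z q) 0 w)) = 0
  rw [dual hm hq h0 h0', dual hm hq h0 h0']
  exact h2

end Vale.Agent.P207Z.SC.Car0x

end
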